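import Mathlib

namespace Vale.Agent.P052

open Finset

variable {V : Type*} [DecidableEq V]

/-- `Col s X m`: the points of `X` can be coloured with `m` colours so that two distinct points
of the same colour are always `s`-related. -/
def Col (s : V → V → Prop) (X : Finset V) (m : ℕ) : Prop :=
  ∃ c : V → ℕ, (∀ x ∈ X, c x < m) ∧ ∀ x ∈ X, ∀ y ∈ X, x ≠ y → c x = c y → s x y

theorem Col.base (s : V → V → Prop) (X : Finset V) : Col s X X.card := by
  refine ⟨fun x => if h : x ∈ X then (X.equivFin ⟨x, h⟩ : ℕ) else 0, ?_, ?_⟩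
  · intro x hx
    simp only [hx, dif_pos]
    exact (X.equivFin ⟨x, hx⟩).2
  · intro x hx y hy hxy h
    simp only [hx, hy, dif_pos] at h
    have := X.equivFin.injective (Fin.ext h)
    exact absurd (congrArg Subtype.val this) hxy

omit [DecidableEq V] in
theorem Col.mono {s : V → V → Prop} {X : Finset V} {m m' : ℕ} (h : m ≤ m') (hc : Col s X m) :
    Col s X m' := by
  obtain ⟨c, h1, h2⟩ := hc
  exact ⟨c, fun x hx => lt_of_lt_of_le (h1 x hx) h, h2⟩

theorem Col.edge {s : V → V → Prop} (hs : ∀ x y, s x y → s y x) {X : Finset V} {m : ℕ} {a b : V}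
    (hab : s a b) (h : Col s ((X.erase a).erase b) m) : Col s X (m + 1) := by
  obtain ⟨c, h1, h2⟩ := h
  refine ⟨fun x => if x = a ∨ x = b then m else c x, ?_, ?_⟩
  · intro x hx
    by_cases hx' : x = a ∨ x = b
    · simp [hx']
    · simp only [hx', if_false]
      push Not at hx'
      have : x ∈ (X.erase a).erase b := by simp [Finset.mem_erase, hx, hx'.1, hx'.2]
      exact Nat.lt_succ_of_lt (h1 x this)
  · intro x hx y hy hxy hc
    by_cases hx' : x = a ∨ x = b <;> by_cases hy' : y = a ∨ y = b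
    · rcases hx' with rfl | rfl <;> rcases hy' with rfl | rfl
      · exact absurd rfl hxy
      · exact hab
      · exact hs _ _ hab
      · exact absurd rfl hxy
    · simp only [hx', hy', if_true, if_false] at hc
      push Not at hy'
      have : y ∈ (X.erase a).erase b := by simp [Finset.mem_erase, hy, hy'.1, hy'.2]
      have := h1 y this
      omega
    · simp only [hx', hy', if_true, if_false] at hc
      push Not at hx'
      have : x ∈ (X.erase a).erase b := by simp [Finset.mem_erase, hx, hx'.1, hx'.2]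
      have := h1 x this
      omega
    · simp only [hx', hy', if_false] at hc
      push Not at hx' hy'
      have hx2 : x ∈ (X.erase a).erase b := by simp [Finset.mem_erase, hx, hx'.1, hx'.2]
      have hy2 : y ∈ (X.erase a).erase b := by simp [Finset.mem_erase, hy, hy'.1, hy'.2]
      exact h2 x hx2 y hy2 hxy hc

theorem Col.tri {s : V → V → Prop} (hs : ∀ x y, s x y → s y x) {X : Finset V} {m : ℕ} {a b c : V}
    (hab : s a b) (hac : s a c) (hbc : s b c)
    (h : Col s (((X.erase a).erase b).erase c) m) : Col s X (m + 1) := by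
  obtain ⟨col, h1, h2⟩ := h
  refine ⟨fun x => if x = a ∨ x = b ∨ x = c then m else col x, ?_, ?_⟩
  · intro x hx
    by_cases hx' : x = a ∨ x = b ∨ x = c
    · simp [hx']
    · simp only [hx', if_false]
      push Not at hx'
      have : x ∈ ((X.erase a).erase b).erase c := by
        simp [Finset.mem_erase, hx, hx'.1, hx'.2.1, hx'.2.2]
      exact Nat.lt_succ_of_lt (h1 x this)
  · intro x hx y hy hxy hc
    by_cases hx' : x = a ∨ x = b ∨ x = c <;> by_cases hy' : y = a ∨ y = b ∨ y = c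
    · rcases hx' with rfl | rfl | rfl <;> rcases hy' with rfl | rfl | rfl
      · exact absurd rfl hxy
      · exact hab
      · exact hac
      · exact hs _ _ hab
      · exact absurd rfl hxy
      · exact hbc
      · exact hs _ _ hac
      · exact hs _ _ hbc
      · exact absurd rfl hxy
    · simp only [hx', hy', if_true, if_false] at hc
      push Not at hy'
      have : y ∈ ((X.erase a).erase b).erase c := by
        simp [Finset.mem_erase, hy, hy'.1, hy'.2.1, hy'.2.2]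
      have := h1 y this
      omega
    · simp only [hx', hy', if_true, if_false] at hc
      push Not at hx'
      have : x ∈ ((X.erase a).erase b).erase c := by
        simp [Finset.mem_erase, hx, hx'.1, hx'.2.1, hx'.2.2]
      have := h1 x this
      omega
    · simp only [hx', hy', if_false] at hc
      push Not at hx' hy'
      have hx2 : x ∈ ((X.erase a).erase b).erase c := by
        simp [Finset.mem_erase, hx, hx'.1, hx'.2.1, hx'.2.2]
      have hy2 : y ∈ ((X.erase a).erase b).erase c := by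
        simp [Finset.mem_erase, hy, hy'.1, hy'.2.1, hy'.2.2]
      exact h2 x hx2 y hy2 hxy hc

/-- one edge saves one colour -/
theorem col_edge {s : V → V → Prop} (hs : ∀ x y, s x y → s y x) {X : Finset V} {a b : V}
    (ha : a ∈ X) (hb : b ∈ X.erase a) (hab : s a b) : Col s X (X.card - 1) := by
  have h := Col.edge hs hab (Col.base s ((X.erase a).erase b))
  rw [Finset.card_erase_of_mem hb, Finset.card_erase_of_mem ha] at h
  have h1 : 0 < X.card := Finset.card_pos.mpr ⟨a, ha⟩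
  have h2 : 0 < (X.erase a).card := Finset.card_pos.mpr ⟨b, hb⟩
  rw [Finset.card_erase_of_mem ha] at h2
  exact Col.mono (by omega) h

/-- two disjoint edges save two colours -/
theorem col_two_edges {s : V → V → Prop} (hs : ∀ x y, s x y → s y x) {X : Finset V} {a b a' b' : V}
    (ha : a ∈ X) (hb : b ∈ X.erase a) (hab : s a b)
    (ha' : a' ∈ (X.erase a).erase b) (hb' : b' ∈ ((X.erase a).erase b).erase a')
    (hab' : s a' b') : Col s X (X.card - 2) := by
  have h := Col.edge hs hab (col_edge hs ha' hb' hab')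
  have h2 : 0 < (((X.erase a).erase b).erase a').card := Finset.card_pos.mpr ⟨b', hb'⟩
  rw [Finset.card_erase_of_mem ha', Finset.card_erase_of_mem hb, Finset.card_erase_of_mem ha] at h2
  rw [Finset.card_erase_of_mem hb, Finset.card_erase_of_mem ha] at h
  exact Col.mono (by omega) h

/-- three disjoint edges save three colours -/
theorem col_three_edges {s : V → V → Prop} (hs : ∀ x y, s x y → s y x) {X : Finset V}
    {a b a' b' a'' b'' : V}
    (ha : a ∈ X) (hb : b ∈ X.erase a) (hab : s a b)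
    (ha' : a' ∈ (X.erase a).erase b) (hb' : b' ∈ ((X.erase a).erase b).erase a')
    (hab' : s a' b')
    (ha'' : a'' ∈ (((X.erase a).erase b).erase a').erase b')
    (hb'' : b'' ∈ ((((X.erase a).erase b).erase a').erase b').erase a'')
    (hab'' : s a'' b'') : Col s X (X.card - 3) := by
  have h := Col.edge hs hab (col_two_edges hs ha' hb' hab' ha'' hb'' hab'')
  have h2 : 0 < (((((X.erase a).erase b).erase a').erase b').erase a'').card :=
    Finset.card_pos.mpr ⟨b'', hb''⟩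
  rw [Finset.card_erase_of_mem ha'', Finset.card_erase_of_mem hb', Finset.card_erase_of_mem ha',
    Finset.card_erase_of_mem hb, Finset.card_erase_of_mem ha] at h2
  rw [Finset.card_erase_of_mem hb, Finset.card_erase_of_mem ha] at h
  exact Col.mono (by omega) h

/-- a triangle saves two colours -/
theorem col_tri {s : V → V → Prop} (hs : ∀ x y, s x y → s y x) {X : Finset V} {a b c : V}
    (ha : a ∈ X) (hb : b ∈ X.erase a) (hc : c ∈ (X.erase a).erase b)
    (hab : s a b) (hac : s a c) (hbc : s b c) : Col s X (X.card - 2) := by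
  have h := Col.tri hs hab hac hbc (Col.base s (((X.erase a).erase b).erase c))
  have h2 : 0 < ((X.erase a).erase b).card := Finset.card_pos.mpr ⟨c, hc⟩
  rw [Finset.card_erase_of_mem hb, Finset.card_erase_of_mem ha] at h2
  rw [Finset.card_erase_of_mem hc, Finset.card_erase_of_mem hb, Finset.card_erase_of_mem ha] at h
  exact Col.mono (by omega) h

/-- a triangle and a disjoint edge save three colours -/
theorem col_tri_edge {s : V → V → Prop} (hs : ∀ x y, s x y → s y x) {X : Finset V} {a b c a' b' : V}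
    (ha : a ∈ X) (hb : b ∈ X.erase a) (hc : c ∈ (X.erase a).erase b)
    (hab : s a b) (hac : s a c) (hbc : s b c)
    (ha' : a' ∈ ((X.erase a).erase b).erase c) (hb' : b' ∈ (((X.erase a).erase b).erase c).erase a')
    (hab' : s a' b') : Col s X (X.card - 3) := by
  have h := Col.tri hs hab hac hbc (col_edge hs ha' hb' hab')
  have h2 : 0 < ((((X.erase a).erase b).erase c).erase a').card := Finset.card_pos.mpr ⟨b', hb'⟩
  rw [Finset.card_erase_of_mem ha', Finset.card_erase_of_mem hc, Finset.card_erase_of_mem hb,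
    Finset.card_erase_of_mem ha] at h2
  rw [Finset.card_erase_of_mem hc, Finset.card_erase_of_mem hb, Finset.card_erase_of_mem ha] at h
  exact Col.mono (by omega) h

/-- From the cherry property on sets of at least `D + 2` points: a set of at least `D + 3` points
contains two disjoint edges or a triangle. -/
theorem two_or_tri {s : V → V → Prop} (hs : ∀ x y, s x y → s y x)
    (X : Finset V) (D : ℕ)
    (hP : ∀ T ⊆ X, D + 2 ≤ T.card → ∃ x ∈ T, ∃ y ∈ T, ∃ z ∈ T, y ≠ z ∧ s x y ∧ s x z)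
    (hcard : D + 3 ≤ X.card) :
    (∃ a b a' b', a ∈ X ∧ b ∈ X ∧ a' ∈ X ∧ b' ∈ X ∧ a ≠ a' ∧ a ≠ b' ∧ b ≠ a' ∧ b ≠ b' ∧
      s a b ∧ s a' b') ∨
    (∃ a b c, a ∈ X ∧ b ∈ X ∧ c ∈ X ∧ s a b ∧ s a c ∧ s b c) := by
  obtain ⟨a, ha, b, hb, c, hc, hbc, hab, hac⟩ := hP X (Finset.Subset.refl _) (by omega)
  obtain ⟨x, hx, y, hy, z, hz, hyz, hxy, hxz⟩ := hP (X.erase a) (Finset.erase_subset _ _)
    (by rw [Finset.card_erase_of_mem ha]; omega)
  have hxa : x ≠ a := (Finset.mem_erase.mp hx).1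
  have hya : y ≠ a := (Finset.mem_erase.mp hy).1
  have hxX : x ∈ X := Finset.mem_of_mem_erase hx
  have hyX : y ∈ X := Finset.mem_of_mem_erase hy
  by_cases h1 : b = x ∨ b = y
  · by_cases h2 : c = x ∨ c = y
    · right
      refine ⟨a, b, c, ha, hb, hc, hab, hac, ?_⟩
      rcases h1 with rfl | rfl <;> rcases h2 with rfl | rfl
      · exact absurd rfl hbc
      · exact hxy
      · exact hs _ _ hxy
      · exact absurd rfl hbc
    · left
      push Not at h2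
      exact ⟨a, c, x, y, ha, hc, hxX, hyX, hxa.symm, hya.symm, h2.1, h2.2, hac, hxy⟩
  · left
    push Not at h1
    exact ⟨a, b, x, y, ha, hb, hxX, hyX, hxa.symm, hya.symm, h1.1, h1.2, hab, hxy⟩

/-- The final contradiction: two disjoint edges `o1 e1`, `o2 e2`, the rest independent, and the
ends `e1`, `e2` have no neighbour in the rest. -/
theorem final_contra {s : V → V → Prop} (hs : ∀ x y, s x y → s y x) (hirr : ∀ x, ¬ s x x)
    (X : Finset V) (D : ℕ)
    (hP : ∀ T ⊆ X, D + 2 ≤ T.card → ∃ x ∈ T, ∃ y ∈ T, ∃ z ∈ T, y ≠ z ∧ s x y ∧ s x z)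
    (hcard : X.card = D + 4) {o1 e1 o2 e2 : V} (ho1 : o1 ∈ X) (ho2 : o2 ∈ X) (h12 : o1 ≠ o2)
    (hee : e1 ≠ e2)
    (hR : ∀ u v, u ∈ X → v ∈ X → (u ≠ o1 ∧ u ≠ e1 ∧ u ≠ o2 ∧ u ≠ e2) →
      (v ≠ o1 ∧ v ≠ e1 ∧ v ≠ o2 ∧ v ≠ e2) → ¬ s u v)
    (h1 : ∀ u, u ∈ X → (u ≠ o1 ∧ u ≠ e1 ∧ u ≠ o2 ∧ u ≠ e2) → ¬ s e1 u)
    (h2 : ∀ u, u ∈ X → (u ≠ o1 ∧ u ≠ e1 ∧ u ≠ o2 ∧ u ≠ e2) → ¬ s e2 u) : False := by
  have hmem2 : o2 ∈ X.erase o1 := Finset.mem_erase.mpr ⟨h12.symm, ho2⟩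
  obtain ⟨p, hp, q, hq, r, hr, hqr, hpq, hpr⟩ := hP ((X.erase o1).erase o2)
    ((Finset.erase_subset _ _).trans (Finset.erase_subset _ _))
    (by rw [Finset.card_erase_of_mem hmem2, Finset.card_erase_of_mem ho1]; omega)
  have cls : ∀ w ∈ (X.erase o1).erase o2,
      (w ∈ X ∧ (w ≠ o1 ∧ w ≠ e1 ∧ w ≠ o2 ∧ w ≠ e2)) ∨ w = e1 ∨ w = e2 := by
    intro w hw
    simp only [Finset.mem_erase] at hw
    by_cases he1 : w = e1
    · exact Or.inr (Or.inl he1)
    · by_cases he2 : w = e2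
      · exact Or.inr (Or.inr he2)
      · exact Or.inl ⟨hw.2.2, hw.2.1, he1, hw.1, he2⟩
  have nb : ∀ w w', ((w ∈ X ∧ (w ≠ o1 ∧ w ≠ e1 ∧ w ≠ o2 ∧ w ≠ e2)) ∨ w = e1 ∨ w = e2) →
      ((w' ∈ X ∧ (w' ≠ o1 ∧ w' ≠ e1 ∧ w' ≠ o2 ∧ w' ≠ e2)) ∨ w' = e1 ∨ w' = e2) → s w w' →
      (w = e1 ∧ w' = e2) ∨ (w = e2 ∧ w' = e1) := by
    intro w w' hw hw' hww
    rcases hw with hw | rfl | rfl <;> rcases hw' with hw' | rfl | rfl
    · exact absurd hww (hR w w' hw.1 hw'.1 hw.2 hw'.2)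
    · exact absurd (hs _ _ hww) (h1 w hw.1 hw.2)
    · exact absurd (hs _ _ hww) (h2 w hw.1 hw.2)
    · exact absurd hww (h1 w' hw'.1 hw'.2)
    · exact absurd hww (hirr _)
    · exact Or.inl ⟨rfl, rfl⟩
    · exact absurd hww (h2 w' hw'.1 hw'.2)
    · exact Or.inr ⟨rfl, rfl⟩
    · exact absurd hww (hirr _)
  rcases nb p q (cls p hp) (cls q hq) hpq with ⟨hp1, hq1⟩ | ⟨hp1, hq1⟩ <;>
    rcases nb p r (cls p hp) (cls r hr) hpr with ⟨hp2, hr2⟩ | ⟨hp2, hr2⟩
  · exact hqr (hq1.trans hr2.symm)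
  · exact hee (hp1.symm.trans hp2)
  · exact hee (hp2.symm.trans hp1)
  · exact hqr (hq1.trans hr2.symm)

/-- With `D + 4` points and two disjoint edges we can save three colours. -/
theorem stepC {s : V → V → Prop} (hs : ∀ x y, s x y → s y x) (hirr : ∀ x, ¬ s x x)
    (X : Finset V) (D : ℕ)
    (hP : ∀ T ⊆ X, D + 2 ≤ T.card → ∃ x ∈ T, ∃ y ∈ T, ∃ z ∈ T, y ≠ z ∧ s x y ∧ s x z)
    (hcard : X.card = D + 4) {a1 b1 a2 b2 : V} (ha1 : a1 ∈ X) (hb1 : b1 ∈ X) (ha2 : a2 ∈ X)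
    (hb2 : b2 ∈ X) (n1 : a1 ≠ a2) (n2 : a1 ≠ b2) (n3 : b1 ≠ a2) (n4 : b1 ≠ b2)
    (s1 : s a1 b1) (s2 : s a2 b2) : Col s X (D + 1) := by
  have hne : ∀ x y, s x y → x ≠ y := fun x y h e => hirr x (e ▸ h)
  have n5 : a1 ≠ b1 := hne _ _ s1
  have n6 : a2 ≠ b2 := hne _ _ s2
  have hD : X.card - 3 = D + 1 := by omega
  by_cases hR : ∃ u v, u ∈ X ∧ v ∈ X ∧ (u ≠ a1 ∧ u ≠ b1 ∧ u ≠ a2 ∧ u ≠ b2) ∧
      (v ≠ a1 ∧ v ≠ b1 ∧ v ≠ a2 ∧ v ≠ b2) ∧ s u v
  · obtain ⟨u, v, hu, hv, hu', hv', huv⟩ := hR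
    have huv' := hne _ _ huv
    rw [← hD]
    refine col_three_edges hs (a := a1) (b := b1) (a' := a2) (b' := b2) (a'' := u) (b'' := v)
      ha1 ?_ s1 ?_ ?_ s2 ?_ ?_ huv
    · simp [Finset.mem_erase, hb1, n5.symm]
    · simp [Finset.mem_erase, ha2, n1.symm, n3.symm]
    · simp [Finset.mem_erase, hb2, n2.symm, n4.symm, n6.symm]
    · simp [Finset.mem_erase, hu, hu'.1, hu'.2.1, hu'.2.2.1, hu'.2.2.2]
    · simp [Finset.mem_erase, hv, hv'.1, hv'.2.1, hv'.2.2.1, hv'.2.2.2, huv'.symm]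
  by_cases h1 : (∃ u, u ∈ X ∧ (u ≠ a1 ∧ u ≠ b1 ∧ u ≠ a2 ∧ u ≠ b2) ∧ s a1 u) ∧
      (∃ u, u ∈ X ∧ (u ≠ a1 ∧ u ≠ b1 ∧ u ≠ a2 ∧ u ≠ b2) ∧ s b1 u)
  · obtain ⟨⟨u, hu, hu', hau⟩, ⟨v, hv, hv', hbv⟩⟩ := h1
    rw [← hD]
    by_cases huv : u = v
    · subst huv
      refine col_tri_edge hs (a := a1) (b := b1) (c := u) (a' := a2) (b' := b2)
        ha1 ?_ ?_ s1 hau hbv ?_ ?_ s2
      · simp [Finset.mem_erase, hb1, n5.symm]
      · simp [Finset.mem_erase, hu, hu'.1, hu'.2.1]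
      · simp [Finset.mem_erase, ha2, n1.symm, n3.symm, hu'.2.2.1.symm]
      · simp [Finset.mem_erase, hb2, n2.symm, n4.symm, n6.symm, hu'.2.2.2.symm]
    · refine col_three_edges hs (a := a1) (b := u) (a' := b1) (b' := v) (a'' := a2) (b'' := b2)
        ha1 ?_ hau ?_ ?_ hbv ?_ ?_ s2
      · simp [Finset.mem_erase, hu, hu'.1]
      · simp [Finset.mem_erase, hb1, n5.symm, hu'.2.1.symm]
      · simp [Finset.mem_erase, hv, hv'.1, hv'.2.1, Ne.symm huv]
      · simp [Finset.mem_erase, ha2, n1.symm, n3.symm, hu'.2.2.1.symm, hv'.2.2.1.symm]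
      · simp [Finset.mem_erase, hb2, n2.symm, n4.symm, n6.symm, hu'.2.2.2.symm, hv'.2.2.2.symm]
  by_cases h2 : (∃ u, u ∈ X ∧ (u ≠ a1 ∧ u ≠ b1 ∧ u ≠ a2 ∧ u ≠ b2) ∧ s a2 u) ∧
      (∃ u, u ∈ X ∧ (u ≠ a1 ∧ u ≠ b1 ∧ u ≠ a2 ∧ u ≠ b2) ∧ s b2 u)
  · obtain ⟨⟨u, hu, hu', hau⟩, ⟨v, hv, hv', hbv⟩⟩ := h2
    rw [← hD]
    by_cases huv : u = v
    · subst huv
      refine col_tri_edge hs (a := a2) (b := b2) (c := u) (a' := a1) (b' := b1)
        ha2 ?_ ?_ s2 hau hbv ?_ ?_ s1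
      · simp [Finset.mem_erase, hb2, n6.symm]
      · simp [Finset.mem_erase, hu, hu'.2.2.1, hu'.2.2.2]
      · simp [Finset.mem_erase, ha1, n1, n2, hu'.1.symm]
      · simp [Finset.mem_erase, hb1, n3, n4, n5.symm, hu'.2.1.symm]
    · refine col_three_edges hs (a := a2) (b := u) (a' := b2) (b' := v) (a'' := a1) (b'' := b1)
        ha2 ?_ hau ?_ ?_ hbv ?_ ?_ s1
      · simp [Finset.mem_erase, hu, hu'.2.2.1]
      · simp [Finset.mem_erase, hb2, n6.symm, hu'.2.2.2.symm]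
      · simp [Finset.mem_erase, hv, hv'.2.2.1, hv'.2.2.2, Ne.symm huv]
      · simp [Finset.mem_erase, ha1, n1, n2, hu'.1.symm, hv'.1.symm]
      · simp [Finset.mem_erase, hb1, n3, n4, n5.symm, hu'.2.1.symm, hv'.2.1.symm]
  exfalso
  push Not at hR
  have hA1 : (∀ u, u ∈ X → (u ≠ a1 ∧ u ≠ b1 ∧ u ≠ a2 ∧ u ≠ b2) → ¬ s a1 u) ∨
      (∀ u, u ∈ X → (u ≠ a1 ∧ u ≠ b1 ∧ u ≠ a2 ∧ u ≠ b2) → ¬ s b1 u) := by
    by_contra hcon
    push Not at hcon
    obtain ⟨⟨u, hu, hu', hsu⟩, ⟨v, hv, hv', hsv⟩⟩ := hcon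
    exact h1 ⟨⟨u, hu, hu', hsu⟩, ⟨v, hv, hv', hsv⟩⟩
  have hA2 : (∀ u, u ∈ X → (u ≠ a1 ∧ u ≠ b1 ∧ u ≠ a2 ∧ u ≠ b2) → ¬ s a2 u) ∨
      (∀ u, u ∈ X → (u ≠ a1 ∧ u ≠ b1 ∧ u ≠ a2 ∧ u ≠ b2) → ¬ s b2 u) := by
    by_contra hcon
    push Not at hcon
    obtain ⟨⟨u, hu, hu', hsu⟩, ⟨v, hv, hv', hsv⟩⟩ := hcon
    exact h2 ⟨⟨u, hu, hu', hsu⟩, ⟨v, hv, hv', hsv⟩⟩
  rcases hA1 with hA1 | hA1 <;> rcases hA2 with hA2 | hA2
  · -- clean ends a1, a2; delete b1, b2
    exact final_contra hs hirr X D hP hcard (o1 := b1) (e1 := a1) (o2 := b2) (e2 := a2) hb1 hb2 n4 n1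
      (fun u v hu hv hu' hv' => hR u v hu hv ⟨hu'.2.1, hu'.1, hu'.2.2.2, hu'.2.2.1⟩
        ⟨hv'.2.1, hv'.1, hv'.2.2.2, hv'.2.2.1⟩)
      (fun u hu hu' => hA1 u hu ⟨hu'.2.1, hu'.1, hu'.2.2.2, hu'.2.2.1⟩)
      (fun u hu hu' => hA2 u hu ⟨hu'.2.1, hu'.1, hu'.2.2.2, hu'.2.2.1⟩)
  · exact final_contra hs hirr X D hP hcard (o1 := b1) (e1 := a1) (o2 := a2) (e2 := b2) hb1 ha2 n3 n2
      (fun u v hu hv hu' hv' => hR u v hu hv ⟨hu'.2.1, hu'.1, hu'.2.2.1, hu'.2.2.2⟩
        ⟨hv'.2.1, hv'.1, hv'.2.2.1, hv'.2.2.2⟩)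
      (fun u hu hu' => hA1 u hu ⟨hu'.2.1, hu'.1, hu'.2.2.1, hu'.2.2.2⟩)
      (fun u hu hu' => hA2 u hu ⟨hu'.2.1, hu'.1, hu'.2.2.1, hu'.2.2.2⟩)
  · exact final_contra hs hirr X D hP hcard (o1 := a1) (e1 := b1) (o2 := b2) (e2 := a2) ha1 hb2 n2 n3
      (fun u v hu hv hu' hv' => hR u v hu hv ⟨hu'.1, hu'.2.1, hu'.2.2.2, hu'.2.2.1⟩
        ⟨hv'.1, hv'.2.1, hv'.2.2.2, hv'.2.2.1⟩)
      (fun u hu hu' => hA1 u hu ⟨hu'.1, hu'.2.1, hu'.2.2.2, hu'.2.2.1⟩)
      (fun u hu hu' => hA2 u hu ⟨hu'.1, hu'.2.1, hu'.2.2.2, hu'.2.2.1⟩)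
  · exact final_contra hs hirr X D hP hcard (o1 := a1) (e1 := b1) (o2 := a2) (e2 := b2) ha1 ha2 n1 n4
      (fun u v hu hv hu' hv' => hR u v hu hv hu' hv')
      (fun u hu hu' => hA1 u hu hu')
      (fun u hu hu' => hA2 u hu hu')

/-- Main combinatorial statement. -/
theorem comb {s : V → V → Prop} (hs : ∀ x y, s x y → s y x) (hirr : ∀ x, ¬ s x x)
    (X : Finset V) (D : ℕ)
    (hP : ∀ T ⊆ X, D + 2 ≤ T.card → ∃ x ∈ T, ∃ y ∈ T, ∃ z ∈ T, y ≠ z ∧ s x y ∧ s x z)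
    (hcard : X.card ≤ D + 4) : Col s X (D + 1) := by
  have hne : ∀ x y, s x y → x ≠ y := fun x y h e => hirr x (e ▸ h)
  by_cases c0 : X.card ≤ D + 1
  · exact Col.mono c0 (Col.base s X)
  by_cases c1 : X.card = D + 2
  · obtain ⟨a, ha, b, hb, c, hc, hbc, hab, hac⟩ := hP X (Finset.Subset.refl _) (by omega)
    have := col_edge hs ha (Finset.mem_erase.mpr ⟨(hne _ _ hab).symm, hb⟩) hab
    exact Col.mono (by omega) this
  have c2 : D + 3 ≤ X.card := by omega
  by_cases c3 : X.card = D + 3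
  · rcases two_or_tri hs X D hP c2 with
      ⟨a, b, a', b', ha, hb, ha', hb', n1, n2, n3, n4, hab, hab'⟩ | ⟨a, b, c, ha, hb, hc, hab, hac, hbc⟩
    · have : Col s X (X.card - 2) := by
        refine col_two_edges hs ha ?_ hab ?_ ?_ hab'
        · simp [Finset.mem_erase, hb, (hne _ _ hab).symm]
        · simp [Finset.mem_erase, ha', n1.symm, n3.symm]
        · simp [Finset.mem_erase, hb', n2.symm, n4.symm, (hne _ _ hab').symm]
      exact Col.mono (by omega) this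
    · have : Col s X (X.card - 2) := by
        refine col_tri hs ha ?_ ?_ hab hac hbc
        · simp [Finset.mem_erase, hb, (hne _ _ hab).symm]
        · simp [Finset.mem_erase, hc, (hne _ _ hac).symm, (hne _ _ hbc).symm]
      exact Col.mono (by omega) this
  have c4 : X.card = D + 4 := by omega
  rcases two_or_tri hs X D hP c2 with
    ⟨a, b, a', b', ha, hb, ha', hb', n1, n2, n3, n4, hab, hab'⟩ | ⟨a, b, c, ha, hb, hc, hab, hac, hbc⟩
  · exact stepC hs hirr X D hP c4 ha hb ha' hb' n1 n2 n3 n4 hab hab'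
  · -- triangle a b c; look at X minus a, b
    have nab := hne _ _ hab
    have nac := hne _ _ hac
    have nbc := hne _ _ hbc
    have hmemb : b ∈ X.erase a := Finset.mem_erase.mpr ⟨nab.symm, hb⟩
    obtain ⟨p, hp, q, hq, r, hr, hqr, hpq, hpr⟩ := hP ((X.erase a).erase b)
      ((Finset.erase_subset _ _).trans (Finset.erase_subset _ _))
      (by rw [Finset.card_erase_of_mem hmemb, Finset.card_erase_of_mem ha]; omega)
    simp only [Finset.mem_erase] at hp hq hr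
    have hD : X.card - 3 = D + 1 := by omega
    have tri_edge : ∀ x y, x ∈ X → y ∈ X → x ≠ a → x ≠ b → x ≠ c → y ≠ a → y ≠ b → y ≠ c →
        s x y → Col s X (D + 1) := by
      intro x y hx hy xa xb xc ya yb yc hxy
      rw [← hD]
      refine col_tri_edge hs (a := a) (b := b) (c := c) (a' := x) (b' := y) ha ?_ ?_ hab hac hbc
        ?_ ?_ hxy
      · simp [Finset.mem_erase, hb, nab.symm]
      · simp [Finset.mem_erase, hc, nac.symm, nbc.symm]
      · simp [Finset.mem_erase, hx, xa, xb, xc]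
      · simp [Finset.mem_erase, hy, ya, yb, yc, (hne _ _ hxy).symm]
    by_cases hpc : p = c
    · -- c is the centre: use edges a b and c q
      subst hpc
      exact stepC hs hirr X D hP c4 ha hb hc hq.2.2 nac hq.2.1.symm nbc hq.1.symm hab hpq
    · by_cases hqc : q = c
      · -- then r ≠ c
        have hrc : r ≠ c := fun h => hqr (hqc.trans h.symm)
        exact tri_edge p r hp.2.2 hr.2.2 hp.2.1 hp.1 hpc hr.2.1 hr.1 hrc hpr
      · exact tri_edge p q hp.2.2 hq.2.2 hp.2.1 hp.1 hpc hq.2.1 hq.1 hqc hpq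

end Vale.Agent.P052
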