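import Mathlib

namespace Vale.Agent.P052

open Finset

/-- Diagonal-dominance lemma: in a real inner product space of dimension `d`, a finite set `T`
of at least `d + 2` points with all distances at most `δ` must contain a point `x` whose
total squared-distance defect `∑ (δ² - dist² )` to the other points is at least `δ²`. -/
theorem key {V : Type*} [NormedAddCommGroup V] [InnerProductSpace ℝ V] [FiniteDimensional ℝ V] [DecidableEq V]
    (T : Finset V) (δ : ℝ) (hcard : Module.finrank ℝ V + 1 < T.card)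
    (hle : ∀ x ∈ T, ∀ y ∈ T, dist x y ≤ δ)
    (hrow : ∀ x ∈ T, ∑ y ∈ T.erase x, (δ ^ 2 - dist x y ^ 2) < δ ^ 2) : False := by
  obtain ⟨f, hf0, hfs, x0, hx0, hfx0⟩ :=
    Module.exists_nontrivial_relation_sum_zero_of_finrank_succ_lt_card (R := ℝ) hcard
  -- the quadratic form in squared distances vanishes
  have h1 : ∑ x ∈ T, ∑ y ∈ T, f x * f y * dist x y ^ 2 = 0 := by
    have hexp : ∀ x y : V, dist x y ^ 2 = ‖x‖ ^ 2 + ‖y‖ ^ 2 - 2 * inner ℝ x y := by
      intro x y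
      rw [dist_eq_norm, norm_sub_sq_real]; ring
    have hA : ∑ x ∈ T, ∑ y ∈ T, f x * f y * ‖x‖ ^ 2 = 0 := by
      have : ∀ x ∈ T, ∑ y ∈ T, f x * f y * ‖x‖ ^ 2 = 0 := by
        intro x _
        have : ∑ y ∈ T, f x * f y * ‖x‖ ^ 2 = (f x * ‖x‖ ^ 2) * ∑ y ∈ T, f y := by
          rw [Finset.mul_sum]; apply Finset.sum_congr rfl; intros; ring
        rw [this, hfs, mul_zero]
      exact Finset.sum_eq_zero this
    have hB : ∑ x ∈ T, ∑ y ∈ T, f x * f y * ‖y‖ ^ 2 = 0 := by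
      rw [Finset.sum_comm]
      have : ∀ y ∈ T, ∑ x ∈ T, f x * f y * ‖y‖ ^ 2 = 0 := by
        intro y _
        have : ∑ x ∈ T, f x * f y * ‖y‖ ^ 2 = (f y * ‖y‖ ^ 2) * ∑ x ∈ T, f x := by
          rw [Finset.mul_sum]; apply Finset.sum_congr rfl; intros; ring
        rw [this, hfs, mul_zero]
      exact Finset.sum_eq_zero this
    have hC : ∑ x ∈ T, ∑ y ∈ T, f x * f y * inner ℝ x y = 0 := by
      have : inner ℝ (∑ x ∈ T, f x • x) (∑ y ∈ T, f y • y) = ∑ x ∈ T, ∑ y ∈ T, f x * f y * inner ℝ x y := by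
        rw [sum_inner]
        apply Finset.sum_congr rfl; intro x _
        rw [inner_sum]
        apply Finset.sum_congr rfl; intro y _
        rw [inner_smul_left, inner_smul_right]; simp; ring
      rw [← this, hf0, inner_zero_left]
    have : ∑ x ∈ T, ∑ y ∈ T, f x * f y * dist x y ^ 2
        = ∑ x ∈ T, ∑ y ∈ T, f x * f y * ‖x‖ ^ 2 + ∑ x ∈ T, ∑ y ∈ T, f x * f y * ‖y‖ ^ 2
          - 2 * ∑ x ∈ T, ∑ y ∈ T, f x * f y * inner ℝ x y := by
      rw [Finset.mul_sum, ← Finset.sum_add_distrib, ← Finset.sum_sub_distrib]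
      apply Finset.sum_congr rfl; intro x _
      rw [Finset.mul_sum, ← Finset.sum_add_distrib, ← Finset.sum_sub_distrib]
      apply Finset.sum_congr rfl; intro y _
      rw [hexp]; ring
    rw [this, hA, hB, hC]; ring
  -- split off the diagonal
  have h2 : ∀ x ∈ T, ∑ y ∈ T, f x * f y * dist x y ^ 2
      = ∑ y ∈ T.erase x, f x * f y * dist x y ^ 2 := by
    intro x hx
    rw [← Finset.sum_erase_add _ _ hx]; simp
  have h3 : ∀ x ∈ T, ∑ y ∈ T.erase x, f x * f y * δ ^ 2 = - (f x) ^ 2 * δ ^ 2 := by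
    intro x hx
    have : ∑ y ∈ T.erase x, f y = - f x := by
      have := Finset.sum_erase_add T f hx
      linarith
    calc ∑ y ∈ T.erase x, f x * f y * δ ^ 2 = f x * δ ^ 2 * ∑ y ∈ T.erase x, f y := by
          rw [Finset.mul_sum]; apply Finset.sum_congr rfl; intros; ring
      _ = _ := by rw [this]; ring
  -- main identity: δ² ∑ f² = - ∑_{x ≠ y} f x f y (δ² - dist²)
  have h4 : δ ^ 2 * ∑ x ∈ T, (f x) ^ 2
      = - ∑ x ∈ T, ∑ y ∈ T.erase x, f x * f y * (δ ^ 2 - dist x y ^ 2) := by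
    have : ∑ x ∈ T, ∑ y ∈ T.erase x, f x * f y * (δ ^ 2 - dist x y ^ 2)
        = ∑ x ∈ T, (- (f x) ^ 2 * δ ^ 2) - ∑ x ∈ T, ∑ y ∈ T, f x * f y * dist x y ^ 2 := by
      rw [← Finset.sum_sub_distrib]
      apply Finset.sum_congr rfl; intro x hx
      rw [h2 x hx, ← h3 x hx, ← Finset.sum_sub_distrib]
      apply Finset.sum_congr rfl; intros; ring
    rw [this, h1, Finset.mul_sum, sub_zero, ← Finset.sum_neg_distrib]
    apply Finset.sum_congr rfl; intros; ring
  -- AM-GM bound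
  have h5 : - ∑ x ∈ T, ∑ y ∈ T.erase x, f x * f y * (δ ^ 2 - dist x y ^ 2)
      ≤ ∑ x ∈ T, ∑ y ∈ T.erase x, ((f x) ^ 2 + (f y) ^ 2) / 2 * (δ ^ 2 - dist x y ^ 2) := by
    rw [← Finset.sum_neg_distrib]
    apply Finset.sum_le_sum; intro x hx
    rw [← Finset.sum_neg_distrib]
    apply Finset.sum_le_sum; intro y hy
    have hy' : y ∈ T := Finset.mem_of_mem_erase hy
    have hd : 0 ≤ δ ^ 2 - dist x y ^ 2 := by
      have := hle x hx y hy'
      have h0 : 0 ≤ dist x y := dist_nonneg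
      nlinarith
    have : - (f x * f y) ≤ ((f x) ^ 2 + (f y) ^ 2) / 2 := by nlinarith [sq_nonneg (f x + f y)]
    nlinarith
  -- symmetrise
  have h6 : ∑ x ∈ T, ∑ y ∈ T.erase x, ((f x) ^ 2 + (f y) ^ 2) / 2 * (δ ^ 2 - dist x y ^ 2)
      = ∑ x ∈ T, (f x) ^ 2 * ∑ y ∈ T.erase x, (δ ^ 2 - dist x y ^ 2) := by
    have e1 : ∑ x ∈ T, ∑ y ∈ T.erase x, (f y) ^ 2 * (δ ^ 2 - dist x y ^ 2)
        = ∑ x ∈ T, ∑ y ∈ T.erase x, (f x) ^ 2 * (δ ^ 2 - dist x y ^ 2) := by
      have conv : ∀ g : V → V → ℝ, ∑ x ∈ T, ∑ y ∈ T.erase x, g x y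
          = ∑ x ∈ T, ∑ y ∈ T, if x = y then 0 else g x y := by
        intro g
        apply Finset.sum_congr rfl; intro x hx
        rw [← Finset.sum_erase_add T _ hx]
        simp only [if_true, add_zero]
        apply Finset.sum_congr rfl; intro y hy
        rw [if_neg (Finset.ne_of_mem_erase hy).symm]
      rw [conv, conv, Finset.sum_comm]
      apply Finset.sum_congr rfl; intro x _
      apply Finset.sum_congr rfl; intro y _
      by_cases h : x = y
      · simp [h]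
      · rw [if_neg h, if_neg (Ne.symm h), dist_comm]
    have e2 : ∑ x ∈ T, ∑ y ∈ T.erase x, ((f x) ^ 2 + (f y) ^ 2) / 2 * (δ ^ 2 - dist x y ^ 2)
        = (∑ x ∈ T, ∑ y ∈ T.erase x, (f x) ^ 2 * (δ ^ 2 - dist x y ^ 2)
          + ∑ x ∈ T, ∑ y ∈ T.erase x, (f y) ^ 2 * (δ ^ 2 - dist x y ^ 2)) / 2 := by
      rw [← Finset.sum_add_distrib, Finset.sum_div]
      apply Finset.sum_congr rfl; intro x _
      rw [← Finset.sum_add_distrib, Finset.sum_div]
      apply Finset.sum_congr rfl; intros; ring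
    rw [e2, e1]
    have : ∀ a : ℝ, (a + a) / 2 = a := by intro a; ring
    rw [this]
    apply Finset.sum_congr rfl; intro x _
    rw [Finset.mul_sum]
  have h7 : ∑ x ∈ T, (f x) ^ 2 * ∑ y ∈ T.erase x, (δ ^ 2 - dist x y ^ 2)
      < ∑ x ∈ T, (f x) ^ 2 * δ ^ 2 := by
    apply Finset.sum_lt_sum
    · intro x hx
      exact mul_le_mul_of_nonneg_left (hrow x hx).le (sq_nonneg _)
    · exact ⟨x0, hx0, mul_lt_mul_of_pos_left (hrow x0 hx0) (by positivity)⟩
  have h8 : ∑ x ∈ T, (f x) ^ 2 * δ ^ 2 = δ ^ 2 * ∑ x ∈ T, (f x) ^ 2 := by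
    rw [Finset.mul_sum]; apply Finset.sum_congr rfl; intros; ring
  linarith

/-- Among at least `d + 2` points of a `d`-dimensional space with all distances at most `δ`,
some point has two distinct partners at distance strictly less than `δ`. -/
theorem cherry {V : Type*} [NormedAddCommGroup V] [InnerProductSpace ℝ V] [FiniteDimensional ℝ V]
    [DecidableEq V]
    (T : Finset V) (δ : ℝ) (hδ : 0 < δ) (hcard : Module.finrank ℝ V + 1 < T.card)
    (hle : ∀ x ∈ T, ∀ y ∈ T, dist x y ≤ δ) :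
    ∃ x ∈ T, ∃ y ∈ T, ∃ z ∈ T, y ≠ z ∧ (x ≠ y ∧ dist x y < δ) ∧ (x ≠ z ∧ dist x z < δ) := by
  by_contra hcon
  apply key T δ hcard hle
  intro x hx
  by_cases h : ∃ y ∈ T.erase x, dist x y < δ
  · obtain ⟨y, hy, hxy⟩ := h
    have hyT := Finset.mem_of_mem_erase hy
    have hne : x ≠ y := (Finset.ne_of_mem_erase hy).symm
    rw [Finset.sum_eq_single_of_mem y hy]
    · have : 0 < dist x y := dist_pos.mpr hne
      nlinarith
    · intro z hz hzy
      have hzT := Finset.mem_of_mem_erase hz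
      have hxz : x ≠ z := (Finset.ne_of_mem_erase hz).symm
      have h1 : ¬ dist x z < δ := fun hlt =>
        hcon ⟨x, hx, y, hyT, z, hzT, Ne.symm hzy, ⟨hne, hxy⟩, ⟨hxz, hlt⟩⟩
      have h2 := hle x hx z hzT
      have h3 : dist x z = δ := le_antisymm h2 (not_lt.mp h1)
      rw [h3]; ring
  · have h0 : ∑ y ∈ T.erase x, (δ ^ 2 - dist x y ^ 2) = 0 := by
      apply Finset.sum_eq_zero
      intro y hy
      have hyT := Finset.mem_of_mem_erase hy
      have h1 : ¬ dist x y < δ := fun hlt => h ⟨y, hy, hlt⟩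
      have h3 : dist x y = δ := le_antisymm (hle x hx y hyT) (not_lt.mp h1)
      rw [h3]; ring
    rw [h0]; positivity

end Vale.Agent.P052
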